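import Vale.Agent.P232.Calib.Knots
import Vale.Agent.P232.BandFree
import Vale.Agent.P232.Budgets

/-!
# P232: the calibration inequality for a reduced set
-/

open MeasureTheory Set Filter
open scoped Real Topology

noncomputable section

namespace Vale.Agent.P232.Calib

variable {D : Set R3} {M : ℝ} {i j k : Fin 3}

/-- The data of the slice of `D` at height `z`. -/
def sliceData (D : Set R3) (i j : Fin 3) (z : ℝ) : Data :=
  ⟨sliceArea D i j z, rightHeight (heightExt D i j z), topWidth (heightExt D i j z),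
    leftHeight (heightExt D i j z), botWidth (heightExt D i j z)⟩

/-- Data realised by a down-set slice whose fluxes are at most `l`. -/
def Realised (σ : Data) (l : ℝ) : Prop :=
  ∃ s : Vale.Agent.P232.Slice, s.Master l ∧
    s.A = σ.A ∧ s.u = σ.u ∧ s.w = σ.w ∧ s.Y = σ.Y ∧ s.X = σ.X

variable (hdown : ∀ x ∈ D, ∀ y ∈ box, y ≤ x → y ∈ D)
include hdown

theorem isHeight_heightExt (z : ℝ) : IsHeight (heightExt D i j z) :=
  isHeight_of_antitone (antitone_heightExt hdown z) (heightExt_mem D i j z)

theorem realised_sliceData (z : ℝ) :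
    Realised (sliceData D i j z) (Slicing.len (heightExt D i j z)) :=
  ⟨(isHeight_heightExt hdown z).slice,
    (isHeight_heightExt hdown z).master
      (lenGe_len (antitone_heightExt hdown z) (heightExt_mem D i j z)),
    rfl, rfl, rfl, rfl, rfl⟩

theorem antitone_rightHeight : Antitone fun z => rightHeight (heightExt D i j z) := by
  intro a b h
  refine le_csInf ((nonempty_Ioo.2 zero_lt_one).image _) ?_
  rintro _ ⟨x, hx, rfl⟩
  exact ((isHeight_heightExt hdown b).rightHeight_le hx).trans (antitone_heightExt_fst hdown x h)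

theorem antitone_leftHeight : Antitone fun z => leftHeight (heightExt D i j z) := by
  intro a b h
  refine csSup_le ((nonempty_Ioo.2 zero_lt_one).image _) ?_
  rintro _ ⟨x, hx, rfl⟩
  exact (antitone_heightExt_fst hdown x h).trans ((isHeight_heightExt hdown a).le_leftHeight hx)

omit hdown in
theorem intLen (h : IsReduced D M) (hS : SlicingSpec) (hij : i ≠ j) :
    IntervalIntegrable (fun z => Slicing.len (heightExt D i j z)) volume 0 1 := by
  simpa using (hS D M h i j hij (fun _ => 1) (fun _ => 0) continuous_const continuous_const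
    (fun _ => zero_le_one) (fun _ => le_rfl) (fun _ => by norm_num) (1 / 2)
    ⟨by norm_num, by norm_num⟩ (1 / 2) ⟨by norm_num, by norm_num⟩ le_rfl).1

/-- The slices of a reduced set in one direction. -/
def family (h : IsReduced D M) (hS : SlicingSpec) (hij : i ≠ j) : Family where
  slice := sliceData D i j
  len z := Slicing.len (heightExt D i j z)
  intA := (antitone_sliceArea hdown).intervalIntegrable
  intu := (antitone_rightHeight hdown).intervalIntegrable
  intw := ((antitone_rightHeight hdown).intervalIntegrable (a := 0) (b := 1)).congr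
    fun z _ => ((topWidth_eq_rightHeight hdown hij z).1).symm
  intY := (antitone_leftHeight hdown).intervalIntegrable
  intX := ((antitone_leftHeight hdown).intervalIntegrable (a := 0) (b := 1)).congr
    fun z _ => ((topWidth_eq_rightHeight hdown hij z).2).symm
  intlen := intLen h hS hij

omit hdown in
/-- The slicing bound with the one-sided end areas. -/
theorem sliceBound (h : IsReduced D M) (hS : SlicingSpec) (hij : i ≠ j) {a A0 : ℝ}
    (ha : Tendsto (sliceArea D i j) (𝓝[<] 1) (𝓝 a))
    (hA0 : Tendsto (sliceArea D i j) (𝓝[>] 0) (𝓝 A0)) :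
    SliceBound (family h.down h hS hij) a A0 M := by
  intro c s hc hs hc0 hs0 hcs
  set P : ℝ → ℝ := fun x => ∫ t in (0 : ℝ)..x, s t with hP
  have hPc : Continuous P := intervalIntegral.continuous_primitive hs.intervalIntegrable 0
  set T := ∫ z in (0 : ℝ)..1, c (sliceArea D i j z) * Slicing.len (heightExt D i j z) with hT
  have e : ∀ x y : ℝ, ∫ t in x..y, s t = P y - P x := fun x y =>
    (intervalIntegral.integral_interval_sub_left (hs.intervalIntegrable 0 y)
      (hs.intervalIntegrable 0 x)).symm
  have step : ∀ z₁ ∈ Ioo (0 : ℝ) 1, T + (P A0 - P (sliceArea D i j z₁)) ≤ M := by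
    intro z₁ hz₁
    refine le_of_tendsto
      (tendsto_const_nhds.add (((hPc.tendsto A0).comp hA0).sub tendsto_const_nhds)) ?_
    filter_upwards [Ioo_mem_nhdsGT hz₁.1] with z₀ hz₀
    have := (hS D M h i j hij c s hc hs hc0 hs0 hcs z₀ ⟨hz₀.1, hz₀.2.trans hz₁.2⟩ z₁ hz₁
      hz₀.2.le).2
    rwa [e] at this
  show T + ∫ t in a..A0, s t ≤ M
  rw [e]
  exact le_of_tendsto (tendsto_const_nhds.add (tendsto_const_nhds.sub ((hPc.tendsto a).comp ha)))
    (Eventually.mono (Ioo_mem_nhdsLT zero_lt_one) step)

omit hdown in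
/-- **Calibration inequality for a reduced set.** Multipliers dominated on the realised slices
(with any further known property `P` of the slices) bound `M` by the six face areas. -/
theorem reduced_calibration (h : IsReduced D M) (hS : SlicingSpec) (hij : i ≠ j) (hki : k ≠ i)
    (hkj : k ≠ j) (hall : ∀ l, l = i ∨ l = j ∨ l = k) {a A0 au bY aw bX : ℝ}
    (ha : Tendsto (sliceArea D i j) (𝓝[<] 1) (𝓝 a))
    (hA0 : Tendsto (sliceArea D i j) (𝓝[>] 0) (𝓝 A0))
    (hau : Tendsto (sliceArea D k j) (𝓝[<] 1) (𝓝 au))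
    (hbY : Tendsto (sliceArea D k j) (𝓝[>] 0) (𝓝 bY))
    (haw : Tendsto (sliceArea D k i) (𝓝[<] 1) (𝓝 aw))
    (hbX : Tendsto (sliceArea D k i) (𝓝[>] 0) (𝓝 bX))
    {P : Data → Prop} (hP : ∀ᵐ z ∂volume.restrict (Icc (0 : ℝ) 1), P (sliceData D i j z))
    {m : Mult} {c s : ℝ → ℝ} (hc : Continuous c) (hs : Continuous s) (hc0 : ∀ t, 0 ≤ c t)
    (hs0 : ∀ t, 0 ≤ s t) (hcs : ∀ t, c t ^ 2 + s t ^ 2 ≤ 1)
    (hm : Dominated (fun σ l => P σ ∧ Realised σ l) m c) :
    m.lam * boxVolume D + m.E + m.au * au + m.aw * aw + m.bY * bY + m.bX * bX +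
      ∫ t in a..A0, s t ≤ M := by
  refine calibration' (family h.down h hS hij) (sliceBound h hS hij ha hA0)
    (Adm := fun σ l => P σ ∧ Realised σ l) (hP.mono fun z hz => ⟨hz, realised_sliceData h.down z⟩)
    hc hs hc0 hs0 hcs hm ?_ ?_ ?_ ?_ ?_
  · exact (boxVolume_eq h.down h.subset h.measurable hij).symm
  · exact tendsto_nhds_unique (tendsto_sliceArea h.down hij hki hkj hall).2 hau
  · exact tendsto_nhds_unique (tendsto_sliceArea_transpose h.down hij hki hkj hall).2 haw
  · exact tendsto_nhds_unique (tendsto_sliceArea h.down hij hki hkj hall).1 hbY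
  · exact tendsto_nhds_unique (tendsto_sliceArea_transpose h.down hij hki hkj hall).1 hbX

end Vale.Agent.P232.Calib
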