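import Vale.Agent.P232.Calib

/-!
# P232: certificates on knots

`c` and `s` are interpolated linearly on knots `(t, c, s)` with `c² + s² ≤ 1` at the knots; then the
integral of `s` is a trapezoid sum and the domination is checked segment by segment.
-/

open MeasureTheory Set

noncomputable section

namespace Vale.Agent.P232.Calib

/-- A knot: abscissa and the values of `c` and `s`. -/
structure Knot where
  /-- area -/
  t : ℝ
  /-- value of `c` -/
  c : ℝ
  /-- value of `s` -/
  s : ℝ

/-- Affine interpolation parameter, clamped to `[0,1]`. -/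
def clamp (t t' x : ℝ) : ℝ := max 0 (min 1 ((x - t) / (t' - t)))

theorem clamp_mem (t t' x : ℝ) : 0 ≤ clamp t t' x ∧ clamp t t' x ≤ 1 :=
  ⟨le_max_left _ _, max_le zero_le_one (min_le_left _ _)⟩

/-- Interpolation of two values. -/
def lerp (r v v' : ℝ) : ℝ := (1 - r) * v + r * v'

/-- Interpolation along a knot list, constant outside it. -/
def interp (π : Knot → ℝ) : List Knot → ℝ → ℝ
  | [], _ => 0
  | [k], _ => π k
  | k :: k' :: r, x =>
    if x ≤ k'.t then lerp (clamp k.t k'.t x) (π k) (π k') else interp π (k' :: r) x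

/-- A knot list is admissible: abscissae increase, values lie in the quarter disc. -/
def Valid : List Knot → Prop
  | [] => True
  | [k] => 0 ≤ k.c ∧ 0 ≤ k.s ∧ k.c ^ 2 + k.s ^ 2 ≤ 1
  | k :: k' :: r => (0 ≤ k.c ∧ 0 ≤ k.s ∧ k.c ^ 2 + k.s ^ 2 ≤ 1) ∧ k.t < k'.t ∧ Valid (k' :: r)

/-- The trapezoid sum of `s`. -/
def trap : List Knot → ℝ
  | [] => 0
  | [_] => 0
  | k :: k' :: r => (k'.t - k.t) * (k.s + k'.s) / 2 + trap (k' :: r)

/-- Abscissa of the last knot. -/
def lastT : Knot → List Knot → ℝ
  | k, [] => k.t
  | _, k' :: r => lastT k' r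

theorem lastT_ge : ∀ (r : List Knot) (k : Knot), Valid (k :: r) → k.t ≤ lastT k r
  | [], _, _ => le_rfl
  | k' :: r, k, h => le_trans h.2.1.le (lastT_ge r k' h.2.2)

theorem clamp_of_mem {t t' x : ℝ} (h : t < t') (h1 : t ≤ x) (h2 : x ≤ t') :
    clamp t t' x = (x - t) / (t' - t) := by
  have hd : 0 < t' - t := sub_pos.2 h
  rw [clamp, min_eq_right, max_eq_right]
  · exact div_nonneg (by linarith) hd.le
  · rw [div_le_one hd]; linarith

theorem interp_first (π : Knot → ℝ) :
    ∀ (r : List Knot) (k : Knot), Valid (k :: r) → interp π (k :: r) k.t = π k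
  | [], _, _ => by simp [interp]
  | k' :: r, k, h => by
    rw [interp, if_pos h.2.1.le, clamp_of_mem h.2.1 le_rfl h.2.1.le]
    simp [lerp]

theorem continuous_interp (π : Knot → ℝ) :
    ∀ l : List Knot, Valid l → Continuous (interp π l)
  | [], _ => by simpa [interp] using continuous_const
  | [_], _ => by simpa [interp] using continuous_const
  | k :: k' :: r, h => by
    show Continuous fun x => interp π (k :: k' :: r) x
    simp only [interp]
    refine continuous_if_le continuous_id continuous_const ?_ ?_ ?_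
    · exact (by unfold lerp clamp; fun_prop : Continuous fun x =>
        lerp (clamp k.t k'.t x) (π k) (π k')).continuousOn
    · exact (continuous_interp π (k' :: r) h.2.2).continuousOn
    · intro x hx
      have hx' : x = k'.t := hx
      subst hx'
      rw [interp_first π r k' h.2.2, clamp_of_mem h.2.1 h.2.1.le le_rfl,
        div_self (sub_pos.2 h.2.1).ne']
      simp [lerp]

theorem interp_disc : ∀ l : List Knot, Valid l → ∀ x,
    0 ≤ interp Knot.c l x ∧ 0 ≤ interp Knot.s l x ∧
      interp Knot.c l x ^ 2 + interp Knot.s l x ^ 2 ≤ 1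
  | [], _, _ => by simp [interp]
  | [k], h, x => by simpa [interp, Valid] using h
  | k :: k' :: r, h, x => by
    obtain ⟨⟨hc, hs, hq⟩, hlt, hr⟩ := h
    have h' := interp_disc (k' :: r) hr
    by_cases hx : x ≤ k'.t
    · simp only [interp, if_pos hx]
      have hk' := h' k'.t
      rw [interp_first _ r k' hr, interp_first _ r k' hr] at hk'
      obtain ⟨hc', hs', hq'⟩ := hk'
      obtain ⟨hr0, hr1⟩ := clamp_mem k.t k'.t x
      set ρ := clamp k.t k'.t x
      have h1 : 0 ≤ 1 - ρ := by linarith
      refine ⟨by unfold lerp; positivity, by unfold lerp; positivity, ?_⟩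
      unfold lerp
      nlinarith [mul_nonneg h1 hr0, sq_nonneg (k.c - k'.c), sq_nonneg (k.s - k'.s),
        mul_le_mul_of_nonneg_left hq h1, mul_le_mul_of_nonneg_left hq' hr0,
        mul_nonneg (mul_nonneg h1 hr0) (add_nonneg (sq_nonneg (k.c - k'.c))
          (sq_nonneg (k.s - k'.s)))]
    · simp only [interp, if_neg hx]
      exact h' x

/-- The trapezoid sum is the integral of the interpolated `s` over the range of the knots. -/
theorem integral_interp : ∀ (r : List Knot) (k : Knot), Valid (k :: r) →
    ∫ x in k.t..lastT k r, interp Knot.s (k :: r) x = trap (k :: r)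
  | [], k, _ => by simp [lastT, trap]
  | k' :: r, k, h => by
    have hcont := continuous_interp Knot.s (k :: k' :: r) h
    have hle : k'.t ≤ lastT k' r := lastT_ge r k' h.2.2
    rw [lastT, ← intervalIntegral.integral_add_adjacent_intervals
      (hcont.intervalIntegrable k.t k'.t) (hcont.intervalIntegrable _ _), trap]
    congr 1
    · have he : EqOn (interp Knot.s (k :: k' :: r))
          (fun x => (k'.s - k.s) / (k'.t - k.t) * x +
            (k.s - (k'.s - k.s) / (k'.t - k.t) * k.t)) (uIcc k.t k'.t) := by
        intro x hx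
        rw [uIcc_of_le h.2.1.le] at hx
        simp only [interp, if_pos hx.2, clamp_of_mem h.2.1 hx.1 hx.2, lerp]
        ring
      rw [intervalIntegral.integral_congr he, intervalIntegral.integral_add
        (by apply Continuous.intervalIntegrable; fun_prop)
        (by apply Continuous.intervalIntegrable; fun_prop),
        intervalIntegral.integral_const_mul, integral_id, intervalIntegral.integral_const]
      have hd : k'.t - k.t ≠ 0 := (sub_pos.2 h.2.1).ne'
      simp only [smul_eq_mul]
      field_simp
      ring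
    · rw [← integral_interp r k' h.2.2]
      refine intervalIntegral.integral_congr fun x hx => ?_
      rw [uIcc_of_le hle] at hx
      by_cases hx' : x ≤ k'.t
      · obtain rfl : x = k'.t := le_antisymm hx' hx.1
        rw [interp_first _ r k' h.2.2]
        simp only [interp, if_pos le_rfl, clamp_of_mem h.2.1 h.2.1.le le_rfl,
          div_self (sub_pos.2 h.2.1).ne', lerp]
        ring
      · simp only [interp, if_neg hx']

/-- Domination checked segment by segment (`x` is the area, `ρ` the position in the segment). -/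
def SegDom (Adm : Data → ℝ → Prop) (m : Mult) : List Knot → Prop
  | [] => True
  | [_] => True
  | k :: k' :: r =>
    (∀ σ l, Adm σ l → k.t ≤ σ.A → σ.A ≤ k'.t →
      m.val σ ≤ lerp ((σ.A - k.t) / (k'.t - k.t)) k.c k'.c * l) ∧ SegDom Adm m (k' :: r)

theorem dominated_of_segDom {Adm : Data → ℝ → Prop} {m : Mult} :
    ∀ (r : List Knot) (k : Knot), r ≠ [] → Valid (k :: r) → SegDom Adm m (k :: r) →
      ∀ σ l, Adm σ l → k.t ≤ σ.A → σ.A ≤ lastT k r →
        m.val σ ≤ interp Knot.c (k :: r) σ.A * l
  | [], _, h, _, _ => absurd rfl h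
  | k' :: r, k, _, hv, hd => by
    intro σ l hσ h1 h2
    by_cases hx : σ.A ≤ k'.t
    · simp only [interp, if_pos hx, clamp_of_mem hv.2.1 h1 hx]
      exact hd.1 σ l hσ h1 hx
    · simp only [interp, if_neg hx]
      rcases r with _ | ⟨k'', r⟩
      · exact absurd h2 hx
      · exact dominated_of_segDom (k'' :: r) k' (by simp) hv.2.2 hd.2 σ l hσ
          (le_of_not_ge hx) h2

/-- The last knot. -/
def lastK : Knot → List Knot → Knot
  | k, [] => k
  | _, k' :: r => lastK k' r

theorem interp_left (π : Knot → ℝ) : ∀ (r : List Knot) (k : Knot), Valid (k :: r) → ∀ x,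
    x ≤ k.t → interp π (k :: r) x = π k
  | [], _, _, _, _ => by simp [interp]
  | k' :: r, k, h, x, hx => by
    simp only [interp, if_pos (hx.trans h.2.1.le), clamp]
    rw [max_eq_left ((min_le_right _ _).trans
      (div_nonpos_of_nonpos_of_nonneg (by linarith) (by linarith [h.2.1])))]
    simp [lerp]

theorem interp_right (π : Knot → ℝ) : ∀ (r : List Knot) (k : Knot), Valid (k :: r) → ∀ x,
    lastT k r < x → interp π (k :: r) x = π (lastK k r)
  | [], _, _, _, _ => by simp [interp, lastK]
  | k' :: r, k, h, x, hx => by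
    rw [lastT] at hx
    simp only [interp, if_neg (not_le.2 ((lastT_ge r k' h.2.2).trans_lt hx)), lastK]
    exact interp_right π r k' h.2.2 x hx

/-- Domination beyond the knots, where `c` keeps its end values. -/
def TailDom (Adm : Data → ℝ → Prop) (m : Mult) (k : Knot) (r : List Knot) : Prop :=
  (∀ σ l, Adm σ l → σ.A < k.t → m.val σ ≤ k.c * l) ∧
    ∀ σ l, Adm σ l → lastT k r < σ.A → m.val σ ≤ (lastK k r).c * l

/-- **Certificate checker.** Checked segment by segment (and beyond the knots against the end
values); if the knots lie between the end areas, the budget plus the trapezoid sum bounds `p`. -/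
theorem calibration_knots (F : Family) {a A0 p : ℝ} (hF : SliceBound F a A0 p)
    {Adm : Data → ℝ → Prop}
    (hAdm : ∀ᵐ z ∂volume.restrict (Icc (0:ℝ) 1), Adm (F.slice z) (F.len z))
    {m : Mult} {k : Knot} {r : List Knot} (hr : r ≠ []) (hv : Valid (k :: r))
    (hd : SegDom Adm m (k :: r)) (ht : TailDom Adm m k r)
    (hab : a ≤ k.t) (hBA : lastT k r ≤ A0) :
    m.val F.budget + trap (k :: r) ≤ p := by
  have hs := continuous_interp Knot.s (k :: r) hv
  have h := calibration F hF hAdm (continuous_interp Knot.c _ hv) hs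
    (fun t => (interp_disc _ hv t).1) (fun t => (interp_disc _ hv t).2.1)
    (fun t => (interp_disc _ hv t).2.2) (m := m) (fun σ l hσ => by
      by_cases h1 : σ.A < k.t
      · rw [interp_left _ r k hv _ h1.le]
        exact ht.1 σ l hσ h1
      by_cases h2 : lastT k r < σ.A
      · rw [interp_right _ r k hv _ h2]
        exact ht.2 σ l hσ h2
      exact dominated_of_segDom r k hr hv hd σ l hσ (not_lt.1 h1) (not_lt.1 h2))
  have hmono := intervalIntegral.integral_mono_interval hab (lastT_ge r k hv) hBA
    (Filter.Eventually.of_forall fun t => (interp_disc _ hv t).2.1)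
    (hs.intervalIntegrable (μ := volume) a A0)
  rw [integral_interp r k hv] at hmono
  linarith

/-! ## Rational certificates -/

/-- A knot with rational entries. -/
structure QKnot where
  /-- area -/
  t : ℚ
  /-- value of `c` -/
  c : ℚ
  /-- value of `s` -/
  s : ℚ

/-- The real knot of a rational one. -/
def QKnot.real (q : QKnot) : Knot := ⟨q.t, q.c, q.s⟩

/-- Executable validity check of a rational knot list. -/
def qValid : List QKnot → Bool
  | [] => true
  | [k] => decide (0 ≤ k.c) && decide (0 ≤ k.s) && decide (k.c * k.c + k.s * k.s ≤ 1)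
  | k :: k' :: r => decide (0 ≤ k.c) && decide (0 ≤ k.s) && decide (k.c * k.c + k.s * k.s ≤ 1) &&
      decide (k.t < k'.t) && qValid (k' :: r)

/-- Rational trapezoid sum. -/
def qTrap : List QKnot → ℚ
  | [] => 0
  | [_] => 0
  | k :: k' :: r => (k'.t - k.t) * (k.s + k'.s) / 2 + qTrap (k' :: r)

theorem valid_of_qValid : ∀ l : List QKnot, qValid l = true → Valid (l.map QKnot.real)
  | [], _ => trivial
  | [k], h => by
    simp only [qValid, Bool.and_eq_true, decide_eq_true_eq] at h
    obtain ⟨⟨h1, h2⟩, h3⟩ := h
    simp only [List.map, Valid, QKnot.real, sq]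
    exact_mod_cast (⟨h1, h2, h3⟩ : 0 ≤ k.c ∧ 0 ≤ k.s ∧ k.c * k.c + k.s * k.s ≤ 1)
  | k :: k' :: r, h => by
    simp only [qValid, Bool.and_eq_true, decide_eq_true_eq] at h
    obtain ⟨⟨⟨⟨h1, h2⟩, h3⟩, h4⟩, h5⟩ := h
    refine ⟨?_, ?_, valid_of_qValid (k' :: r) h5⟩
    · simp only [QKnot.real, sq]
      exact_mod_cast (⟨h1, h2, h3⟩ : 0 ≤ k.c ∧ 0 ≤ k.s ∧ k.c * k.c + k.s * k.s ≤ 1)
    · simp only [QKnot.real]
      exact_mod_cast h4

theorem trap_map : ∀ l : List QKnot, trap (l.map QKnot.real) = (qTrap l : ℝ)
  | [] => by simp [trap, qTrap]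
  | [_] => by simp [trap, qTrap]
  | k :: k' :: r => by
    have := trap_map (k' :: r)
    simp only [List.map] at this ⊢
    simp only [trap, qTrap]
    rw [this]
    simp only [QKnot.real]
    push_cast
    rfl

example : qValid [⟨0, 1, 0⟩, ⟨1/3, 3/5, 4/5⟩, ⟨1, 0, 1⟩] = true := by decide +kernel

end Vale.Agent.P232.Calib
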